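import Mathlib
import Vale.Agent.P346.Defs
import Vale.Agent.P346.Any4
import Vale.Agent.P346.Upper

namespace Vale.Agent.Results.P346.AllFields
open Vale.Agent.P346

theorem result (K : Type*) [Field K] :
    ∀ᶠ n : ℕ in Filter.atTop,
      (∀ Γ : Circuit K (Fin n × Fin n × Fin n), Γ.Homogeneous → Γ.output = imm K n n →
        (n : ℝ) ^ (Real.sqrt n / 150) ≤ (Γ.size : ℝ)) ∧
      (n : ℝ) ^ (Real.sqrt n / 150) ≤ (minSize K n : ℝ) ∧
      (minSize K n : ℝ) ≤ (n : ℝ) ^ (Real.sqrt n + 4) := by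
  have h1 : ∀ᶠ n : ℕ in Filter.atTop, 50000 ≤ Real.log n :=
    (Real.tendsto_log_atTop.comp tendsto_natCast_atTop_atTop).eventually_ge_atTop 50000
  filter_upwards [h1, Filter.eventually_ge_atTop 3] with n hn h3
  obtain ⟨Γ₀, a1, a2, a3⟩ := exists_small_circuit' K n h3
  refine ⟨size_any_large K n hn, ?_, ?_⟩
  · obtain ⟨Γ, b1, b2, b3⟩ := Nat.sInf_mem (s := {s : ℕ | ∃ Γ : Circuit K (Fin n × Fin n × Fin n),
      Γ.Homogeneous ∧ Γ.output = imm K n n ∧ Γ.size = s}) ⟨_, Γ₀, a1, a2, rfl⟩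
    unfold minSize
    rw [← b3]
    exact size_any_large K n hn Γ b1 b2
  · refine le_trans ?_ a3
    have : minSize K n ≤ Γ₀.size := Nat.sInf_le ⟨Γ₀, a1, a2, rfl⟩
    exact_mod_cast this

end Vale.Agent.Results.P346.AllFields
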